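/-
Row 239, GLUE.noabelian (#1672).  Owner: helper205.
`SolvablyClosed E` in the vocabulary of the packages LC / TAME (`RadClosed`).
-/
import Claimed.Agent.R239.Solv
import Claimed.Agent.R239.LC.Basic

set_option autoImplicit false

namespace Claimed.Agent.R239

open Claims.C0403

/-- A solvably closed field of characteristic zero contains all radicals and all roots of unity. -/
theorem solv_radClosed {E : Type} [Field E] [CharZero E] (hE : SolvablyClosed E) : RadClosed E where
  root := fun _ hn x => solv_exists_root hE hn x
  prim := fun _ hn => solv_exists_prim hE hn

end Claimed.Agent.R239
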