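/-
Row 239 (S0475).  GLUE: base change `Gal(E / fld U) ≃ U` for an open subgroup `U ≤ Gal(E/F)`, and the
transport of the vocabulary of `Defs.lean` (decomp, inert, chi, IsProL, IsTameGen, closures).
Owner: helper110.  No sorry.
-/
import Claimed.Agent.R239.Defs

set_option autoImplicit false

namespace Claimed.Agent.R239

open NumberField
open scoped Pointwise

/-- A homomorphism to a Galois group is continuous as soon as the stabilisers of the elements of the
top field have open preimages. -/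
theorem bc_continuous_of_stab {H K L : Type*} [Group H] [TopologicalSpace H] [IsTopologicalGroup H]
    [Field K] [Field L] [Algebra K L] (f : H →* Gal(L/K))
    (h : ∀ x : L, IsOpen {g : H | f g x = x}) : Continuous f := by
  apply continuous_of_continuousAt_one
  intro s hs
  rw [map_one, krullTopology_mem_nhds_one_iff] at hs
  obtain ⟨E, hE, hEs⟩ := hs
  rw [Filter.mem_map]
  let b := Module.finBasis K E
  have hopen : IsOpen (⋂ i, {g : H | f g (b i : L) = (b i : L)}) :=
    isOpen_iInter_of_finite fun i => h _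
  refine Filter.mem_of_superset (hopen.mem_nhds ?_) ?_
  · simp
  · intro g hg
    apply hEs
    rw [SetLike.mem_coe, IntermediateField.mem_fixingSubgroup_iff]
    intro x hx
    have hx' := b.sum_repr ⟨x, hx⟩
    have hx'' : x = ∑ i, b.repr ⟨x, hx⟩ i • (b i : L) := by
      have := congrArg (fun z : E => (z : L)) hx'
      simp only [IntermediateField.coe_sum, IntermediateField.coe_smul] at this
      exact this.symm
    rw [hx'', map_sum]
    refine Finset.sum_congr rfl fun i _ => ?_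
    rw [map_smul]
    congr 1
    exact Set.mem_iInter.1 hg i

section

variable {F E : Type*} [Field F] [Field E] [Algebra F E]

/-- restriction of scalars `Gal(E / fld U) → Gal(E/F)`. -/
noncomputable def bcR (U : Subgroup Gal(E/F)) : Gal(E/(fld U)) →* Gal(E/F) :=
  AlgEquiv.restrictScalarsHom F

@[simp] theorem bcR_apply (U : Subgroup Gal(E/F)) (g : Gal(E/(fld U))) (x : E) :
    bcR U g x = g x := rfl

theorem bcR_injective (U : Subgroup Gal(E/F)) : Function.Injective (bcR U) :=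
  AlgEquiv.restrictScalarsHom_injective F

theorem bcR_smul (U : Subgroup Gal(E/F)) (g : Gal(E/(fld U))) (y : 𝓞 E) :
    bcR U g • y = g • y := by
  apply RingOfIntegers.ext
  rfl

theorem bcR_smul_ideal (U : Subgroup Gal(E/F)) (g : Gal(E/(fld U))) (P : Ideal (𝓞 E)) :
    bcR U g • P = g • P := by
  ext y
  rw [Ideal.mem_pointwise_smul_iff_inv_smul_mem, Ideal.mem_pointwise_smul_iff_inv_smul_mem,
    ← map_inv, bcR_smul]

theorem bcR_mem_decomp_iff (U : Subgroup Gal(E/F)) (g : Gal(E/(fld U))) (P : Ideal (𝓞 E)) :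
    bcR U g ∈ decomp F P ↔ g ∈ decomp (fld U) P := by
  rw [MulAction.mem_stabilizer_iff, MulAction.mem_stabilizer_iff, bcR_smul_ideal]

theorem bcR_mem_inert_iff (U : Subgroup Gal(E/F)) (g : Gal(E/(fld U))) (P : Ideal (𝓞 E)) :
    bcR U g ∈ inert F P ↔ g ∈ inert (fld U) P := by
  simp only [AddSubgroup.mem_inertia, bcR_smul]

theorem bcR_chi (ℓ : ℕ) [Fact ℓ.Prime] (U : Subgroup Gal(E/F)) (g : Gal(E/(fld U))) :
    chi ℓ F E (bcR U g) = chi ℓ (fld U) E g := by
  unfold chi
  simp only [MonoidHom.comp_apply]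
  congr 1

end

section

variable {F E : Type*} [Field F] [Field E] [Algebra F E] [IsGalois F E]

theorem bcR_continuous (U : Subgroup Gal(E/F)) : Continuous (bcR U) := by
  apply bc_continuous_of_stab
  intro x
  have := stabilizer_isOpen_of_isIntegral (K := fld U) (L := E) x
  convert this using 1
  ext g
  rfl

theorem bcR_mem (U : Subgroup Gal(E/F)) (hU : IsClosed (U : Set Gal(E/F))) (g : Gal(E/(fld U))) :
    bcR U g ∈ U := by
  have h := InfiniteGalois.fixingSubgroup_fixedField (⟨U, hU⟩ : ClosedSubgroup Gal(E/F))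
  have h' : (fld U).fixingSubgroup = U := h
  have h2 : bcR U g ∈ (fld U).fixingSubgroup := by
    rw [IntermediateField.mem_fixingSubgroup_iff]
    intro x hx
    exact g.commutes ⟨x, hx⟩
  rw [h'] at h2
  exact h2

omit [IsGalois F E] in
theorem bcR_surj (U : Subgroup Gal(E/F)) {u : Gal(E/F)} (hu : u ∈ U) : ∃ g, bcR U g = u := by
  refine ⟨{ u with commutes' := fun x => x.2 ⟨u, hu⟩ }, ?_⟩
  ext x
  rfl

theorem bcR_range (U : Subgroup Gal(E/F)) (hU : IsClosed (U : Set Gal(E/F))) :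
    Set.range (bcR U) = (U : Set Gal(E/F)) := by
  ext u
  constructor
  · rintro ⟨g, rfl⟩
    exact bcR_mem U hU g
  · intro hu
    exact bcR_surj U hu

theorem bcR_isClosedEmbedding (U : Subgroup Gal(E/F)) : Topology.IsClosedEmbedding (bcR U) :=
  (bcR_continuous U).isClosedEmbedding (bcR_injective U)

theorem bcR_isOpenEmbedding (U : Subgroup Gal(E/F)) (hU : IsOpen (U : Set Gal(E/F))) :
    Topology.IsOpenEmbedding (bcR U) :=
  ⟨(bcR_isClosedEmbedding U).isEmbedding, by
    rw [bcR_range U (Subgroup.isClosed_of_isOpen U hU)]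
    exact hU⟩

/-- `Gal(E / fld U) → U`. -/
noncomputable def bcE (U : Subgroup Gal(E/F)) (hU : IsClosed (U : Set Gal(E/F))) :
    Gal(E/(fld U)) →* U :=
  (bcR U).codRestrict U (bcR_mem U hU)

@[simp] theorem bcE_coe (U : Subgroup Gal(E/F)) (hU : IsClosed (U : Set Gal(E/F)))
    (g : Gal(E/(fld U))) : ((bcE U hU g : U) : Gal(E/F)) = bcR U g := rfl

theorem bcE_continuous (U : Subgroup Gal(E/F)) (hU : IsClosed (U : Set Gal(E/F))) :
    Continuous (bcE U hU) :=
  (bcR_continuous U).subtype_mk _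

theorem bcR_mem_closure_iff (U : Subgroup Gal(E/F)) (S : Set Gal(E/(fld U)))
    (g : Gal(E/(fld U))) : bcR U g ∈ closure (bcR U '' S) ↔ g ∈ closure S := by
  rw [(bcR_isClosedEmbedding U).isEmbedding.closure_eq_preimage_closure_image]
  rfl

omit [IsGalois F E] in
theorem bcR_image_zpowers (U : Subgroup Gal(E/F)) (τ : Gal(E/(fld U))) :
    bcR U '' (Subgroup.zpowers τ : Set Gal(E/(fld U)))
      = (Subgroup.zpowers (bcR U τ) : Set Gal(E/F)) := by
  ext u
  constructor
  · rintro ⟨g, hg, rfl⟩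
    obtain ⟨n, rfl⟩ := Subgroup.mem_zpowers_iff.1 hg
    exact Subgroup.mem_zpowers_iff.2 ⟨n, by rw [map_zpow]⟩
  · intro hu
    obtain ⟨n, rfl⟩ := Subgroup.mem_zpowers_iff.1 hu
    exact ⟨τ ^ n, Subgroup.mem_zpowers_iff.2 ⟨n, rfl⟩, by rw [map_zpow]⟩

theorem bcR_isProL (U : Subgroup Gal(E/F)) (hU : IsOpen (U : Set Gal(E/F))) {ℓ : ℕ}
    {τ : Gal(E/(fld U))} (h : IsProL ℓ (bcR U τ)) : IsProL ℓ τ := by
  intro V hV
  have hopen : IsOpen ((V.map (bcR U) : Subgroup Gal(E/F)) : Set Gal(E/F)) := by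
    rw [Subgroup.coe_map]
    exact (bcR_isOpenEmbedding U hU).isOpenMap _ hV
  obtain ⟨k, hk⟩ := h _ hopen
  refine ⟨k, ?_⟩
  obtain ⟨g, hg, hgk⟩ := Subgroup.mem_map.1 hk
  rw [← map_pow] at hgk
  rwa [← bcR_injective U hgk]

/-- transport of tame generators to the base field `fld U`. -/
theorem bcR_isTameGen (U : Subgroup Gal(E/F)) (hU : IsOpen (U : Set Gal(E/F))) {ℓ : ℕ}
    {P : Ideal (𝓞 E)} {τ : Gal(E/(fld U))} (h : IsTameGen ℓ U P (bcR U τ)) :
    IsTameGen ℓ (⊤ : Subgroup Gal(E/(fld U))) P τ := by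
  have hUc := Subgroup.isClosed_of_isOpen U hU
  have hmem : τ ∈ inert (fld U) P ⊓ ⊤ := ⟨(bcR_mem_inert_iff U τ P).1 h.mem.1, trivial⟩
  refine ⟨hmem, bcR_isProL U hU h.proL, ?_⟩
  intro c hc hcτ
  -- the map `I_U(P) → I(P)` over `fld U`
  have hex : ∀ u : ↥(inert F P ⊓ U), ∃ g : ↥(inert (fld U) P ⊓ ⊤), bcR U g.1 = u.1 := by
    intro u
    obtain ⟨g, hg⟩ := bcR_surj U u.2.2
    exact ⟨⟨g, (bcR_mem_inert_iff U g P).1 (hg ▸ u.2.1), trivial⟩, hg⟩
  choose s hs using hex
  have hsinj : ∀ g : ↥(inert (fld U) P ⊓ ⊤), ∀ u, bcR U g.1 = u.1 → s u = g := by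
    intro g u hgu
    apply Subtype.ext
    apply bcR_injective U
    rw [hs, hgu]
  let S : ↥(inert F P ⊓ U) →* ↥(inert (fld U) P ⊓ ⊤) :=
    { toFun := s
      map_one' := hsinj 1 1 (by simp)
      map_mul' := fun a b => hsinj (s a * s b) (a * b) (by simp [hs]) }
  have hScont : Continuous S := by
    have hemb : Topology.IsEmbedding
        (fun g : ↥(inert (fld U) P ⊓ ⊤) => bcR U g.1) :=
      (bcR_isClosedEmbedding U).isEmbedding.comp Topology.IsEmbedding.subtypeVal
    rw [hemb.continuous_iff]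
    have : (fun g : ↥(inert (fld U) P ⊓ ⊤) => bcR U g.1) ∘ S = Subtype.val := by
      funext u
      exact hs u
    rw [this]
    exact continuous_subtype_val
  have h1 := h.gen (c.comp S) (hc.comp hScont) (by
    have : S ⟨bcR U τ, h.mem⟩ = ⟨τ, hmem⟩ := hsinj _ _ rfl
    rw [MonoidHom.comp_apply, this]
    exact hcτ)
  ext g
  have hg : bcR U g.1 ∈ inert F P ⊓ U := ⟨(bcR_mem_inert_iff U g.1 P).2 g.2.1, bcR_mem U hUc g.1⟩
  have h2 : S ⟨bcR U g.1, hg⟩ = g := hsinj _ _ rfl
  have h3 := congrArg (fun f => f ⟨bcR U g.1, hg⟩) h1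
  simp only [MonoidHom.comp_apply, h2] at h3
  rw [h3]
  rfl

/-- transport of tame generators from the base field `fld U`. -/
theorem bcR_isTameGen' (U : Subgroup Gal(E/F)) (hU : IsOpen (U : Set Gal(E/F))) {ℓ : ℕ}
    {P : Ideal (𝓞 E)} {τ : Gal(E/(fld U))}
    (h : IsTameGen ℓ (⊤ : Subgroup Gal(E/(fld U))) P τ) : IsTameGen ℓ U P (bcR U τ) := by
  have hUc := Subgroup.isClosed_of_isOpen U hU
  have hm : ∀ g : ↥(inert (fld U) P ⊓ ⊤), bcR U g.1 ∈ inert F P ⊓ U := fun g =>
    ⟨(bcR_mem_inert_iff U g.1 P).2 g.2.1, bcR_mem U hUc g.1⟩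
  refine ⟨hm ⟨τ, h.mem⟩, ?_, ?_⟩
  · intro V hV
    obtain ⟨k, hk⟩ := h.proL (V.comap (bcR U)) (hV.preimage (bcR_continuous U))
    exact ⟨k, by rw [← map_pow]; exact hk⟩
  · intro c hc hcτ
    let R : ↥(inert (fld U) P ⊓ ⊤) →* ↥(inert F P ⊓ U) :=
      { toFun := fun g => ⟨bcR U g.1, hm g⟩
        map_one' := by ext1; simp
        map_mul' := fun a b => by ext1; simp }
    have hR : Continuous R :=
      ((bcR_continuous U).comp continuous_subtype_val).subtype_mk _
    have h1 := h.gen (c.comp R) (hc.comp hR) hcτ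
    ext u
    obtain ⟨g, hg⟩ := bcR_surj U u.2.2
    have hgm : g ∈ inert (fld U) P ⊓ ⊤ := ⟨(bcR_mem_inert_iff U g P).1 (hg ▸ u.2.1), trivial⟩
    have h2 : R ⟨g, hgm⟩ = u := Subtype.ext hg
    have h3 := congrArg (fun f => f ⟨g, hgm⟩) h1
    simp only [MonoidHom.comp_apply, h2] at h3
    rw [h3]
    rfl

/-- `fld U` is a number field. -/
theorem bc_numberField [NumberField F] (U : Subgroup Gal(E/F)) (hU : IsOpen (U : Set Gal(E/F))) :
    NumberField (fld U) := by
  have hUc := Subgroup.isClosed_of_isOpen U hU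
  have h' : (fld U).fixingSubgroup = U :=
    InfiniteGalois.fixingSubgroup_fixedField (⟨U, hUc⟩ : ClosedSubgroup Gal(E/F))
  have hfd : FiniteDimensional F (fld U) := by
    rw [← InfiniteGalois.isOpen_iff_finite, h']
    exact hU
  have : CharZero (fld U) := charZero_of_injective_algebraMap (algebraMap F (fld U)).injective
  have : FiniteDimensional ℚ (fld U) := FiniteDimensional.trans ℚ F (fld U)
  exact ⟨⟩

end

end Claimed.Agent.R239
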