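/-
Row 239 (S0475).  GLUE: the frozen statement from `mat_main` (output of MATCH) and
`mat_stdRes_exists` (B0).  Owner: helper110.
-/
import Claimed.Agent.R239.MATCH.Chain

set_option autoImplicit false

namespace Claimed.Agent.R239

open NumberField Claims.C0403

/-- END, for an arbitrary algebraic closure `Ω` of `ℚ`. -/
theorem end_aux {Ω : Type} [Field Ω] [Algebra ℚ Ω] [IsGalois ℚ Ω] (hΩ : IsAlgClosed Ω)
    (F₁ E₁ F₂ E₂ : Type) [Field F₁] [NumberField F₁] [Field E₁] [Algebra F₁ E₁] [IsGalois F₁ E₁]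
    [Field F₂] [NumberField F₂] [Field E₂] [Algebra F₂ E₂] [IsGalois F₂ E₂]
    (h₂ : SolvablyClosed E₂)
    (α : (E₁ ≃ₐ[F₁] E₁) →* (E₂ ≃ₐ[F₂] E₂)) (hcont : Continuous α) (hopen : IsOpen (Set.range α)) :
    ∃! j : E₂ →+* E₁, ∀ (g : E₁ ≃ₐ[F₁] E₁) (x : E₂), g (j x) = j (α g x) := by
  obtain ⟨D⟩ := mat_stdRes_exists (Ω := Ω) (F₂ := F₁) (E₂ := E₁) hΩ
  have : CharZero E₁ := charZero_of_injective_algebraMap (algebraMap F₁ E₁).injective
  let φ : D.S₂ →* Gal(E₂/F₂) := α.comp D.ρ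
  have hφ : Continuous φ := hcont.comp D.cont
  have hrange : (φ.range : Set Gal(E₂/F₂)) = Set.range α := by
    ext y
    constructor
    · rintro ⟨h, rfl⟩
      exact ⟨D.ρ h, rfl⟩
    · rintro ⟨g, rfl⟩
      obtain ⟨h, rfl⟩ := D.surj g
      exact ⟨h, rfl⟩
  have hφo : IsOpen (φ.range : Set Gal(E₂/F₂)) := hrange ▸ hopen
  obtain ⟨j, hj, huniq⟩ := mat_main hΩ h₂ D.S₂ D.isOpen φ hφ hφo
  have hιinj : Function.Injective D.ι := D.ι.injective
  -- the image of `j` lies in `ι E₁`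
  let L : IntermediateField ℚ Ω := (D.ι.toRatAlgHom).fieldRange
  have hL : ∀ z : Ω, z ∈ L ↔ ∃ y : E₁, D.ι y = z := fun z => by
    simp only [L, AlgHom.mem_fieldRange]
    rfl
  have hmem : ∀ x : E₂, ∃ y : E₁, D.ι y = j x := by
    intro x
    rw [← hL, ← InfiniteGalois.fixedField_fixingSubgroup L, IntermediateField.mem_fixedField_iff]
    intro h hh
    have hfix : ∀ y : E₁, h (D.ι y) = D.ι y := fun y =>
      (IntermediateField.mem_fixingSubgroup_iff L h).1 hh _ ((hL _).2 ⟨y, rfl⟩)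
    have hS : h ∈ D.S₂ := D.mem h fun y => hfix _
    have hρ : D.ρ ⟨h, hS⟩ = 1 := by
      ext y
      apply hιinj
      rw [← D.spec ⟨h, hS⟩ y]
      exact hfix y
    have := hj ⟨h, hS⟩ x
    simpa [φ, hρ] using this
  choose j₀ hj₀ using hmem
  let j₁ : E₂ →+* E₁ :=
    { toFun := j₀
      map_one' := hιinj (by rw [hj₀, map_one, map_one])
      map_mul' := fun a b => hιinj (by rw [hj₀, map_mul, map_mul, hj₀, hj₀])
      map_zero' := hιinj (by rw [hj₀, map_zero, map_zero])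
      map_add' := fun a b => hιinj (by rw [hj₀, map_add, map_add, hj₀, hj₀]) }
  have hj₁ : ∀ x, D.ι (j₁ x) = j x := hj₀
  refine ⟨j₁, ?_, ?_⟩
  · intro g x
    obtain ⟨h, rfl⟩ := D.surj g
    apply hιinj
    rw [← D.spec h, hj₁, hj₁]
    exact hj h x
  · intro j₂ hj₂
    have : D.ι.comp j₂ = j := huniq _ fun h x => by
      simp only [RingHom.comp_apply]
      rw [D.spec h, hj₂]
      rfl
    ext x
    apply hιinj
    rw [hj₁, ← this]
    rfl

/-- END: the frozen statement of S0475. -/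
theorem end_main
    (F₁ E₁ F₂ E₂ : Type) [Field F₁] [NumberField F₁] [Field E₁] [Algebra F₁ E₁] [IsGalois F₁ E₁]
    [Field F₂] [NumberField F₂] [Field E₂] [Algebra F₂ E₂] [IsGalois F₂ E₂]
    (_h₁ : SolvablyClosed E₁) (h₂ : SolvablyClosed E₂)
    (α : (E₁ ≃ₐ[F₁] E₁) →* (E₂ ≃ₐ[F₂] E₂)) (hcont : Continuous α) (hopen : IsOpen (Set.range α)) :
    ∃! j : E₂ →+* E₁, ∀ (g : E₁ ≃ₐ[F₁] E₁) (x : E₂), g (j x) = j (α g x) := by
  let _ : Algebra ℚ (AlgebraicClosure ℚ) := AlgebraicClosure.instAlgebra ℚ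
  have hG : IsGalois ℚ (AlgebraicClosure ℚ) := IsAlgClosure.isGalois ℚ (AlgebraicClosure ℚ)
  exact end_aux (Ω := AlgebraicClosure ℚ) inferInstance F₁ E₁ F₂ E₂ h₂ α hcont hopen

end Claimed.Agent.R239
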